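import Vale.Agent.P281.H511.TG.HasD
import Vale.Agent.P281.H303.TD.Fin
import Vale.Agent.P281.H125.D.GlC

/-!
# P281, project T-G, block G10 for T-D (helper511): `HasFam` for the fibrations of T-D

The fibre over a very general point has a finite étale covering by a complex torus, `Δ` arbitrary.
-/

open Set Filter Metric Vale.Agent.P281 Vale.Agent.P281.H713
open Vale.Agent.P272.K (Chart IsKahler IsHermitian)
open Vale.Agent.P281.MF Vale.Agent.P281.ISO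
open Vale.Agent.P281.H713.TZ Vale.Agent.P281.H64
open Vale.Agent.P281.H64.Gen
open Vale.Agent.P281.H64.Thin (IsThinSet)
open Vale.Agent.P281.H64.TU (Tame KTame RelFormT HasFormsT)
open scoped Topology ContDiff Manifold

set_option linter.all false

noncomputable section

namespace Vale.Agent.P281.H511.TG

open Vale.Agent.P281.H64.TD
open Vale.Agent.P281.H303.TD (TorNStmt relForm_mono fibIn_fin nDegE_of_tor)
open Vale.Agent.P281.H969.TG (HasFormsD HasFam)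

section Mono

variable {E E' E₀ : Type} [NormedAddCommGroup E] [NormedSpace ℂ E] [FiniteDimensional ℂ E]
  [NormedAddCommGroup E'] [NormedSpace ℂ E'] [FiniteDimensional ℂ E']
  [NormedAddCommGroup E₀] [NormedSpace ℂ E₀] [FiniteDimensional ℂ E₀]
variable {X Y : Type} [TopologicalSpace X] [ChartedSpace E X] [IsManifold 𝓘(ℂ, E) ω X]
  [TopologicalSpace Y] [ChartedSpace E' Y] [IsManifold 𝓘(ℂ, E') ω Y]

theorem hasFormsD_mono {T : Tame E₀ X} {f : X → Y} {S S' : Set Y} (h : S ⊆ S')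
    {e₀ : E ≃L[ℂ] (E' × E₀)} {Δ : Set X → ℝ} {r : ℕ} {y : Y} (hR : HasFormsD T f S e₀ Δ r y) :
    HasFormsD T f S' e₀ Δ r y := by
  obtain ⟨N, 𝒜, κ₀, Θ, Ξ, h1, h2, h4, h5, h6⟩ := hR
  exact ⟨N, 𝒜, κ₀, Θ, Ξ, h1, h2, relForm_mono h h4, fun b => relForm_mono h (h5 b), h6⟩

end Mono

/-- the forms, if the coverings number `m` of the fibres are tori -/
theorem mainD (torM : TorMStmt) (torD : TorNStmt) (compl : ComplStmt)
    {p d m : ℕ} {X Y : Type} [TopologicalSpace X]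
    [ChartedSpace (Cm (p + d)) X] [IsManifold 𝓘(ℂ, Cm (p + d)) ω X] [TopologicalSpace Y]
    [ChartedSpace (Cm p) Y] [IsManifold 𝓘(ℂ, Cm p) ω Y] {f : X → Y}
    {Δ : Set X → ℝ} (hd : 0 < d) (h : H511.Surf.IsFibration (Cm (p + d)) (Cm p) f Δ)
    {w : Chart (p + d) X → Cm (p + d) → Matrix (Fin (p + d)) (Fin (p + d)) ℂ} (hw : IsKahler w)
    {S : Set Y} (hS : IsSmallSet (Cm p) S)
    (hP : ∀ S', S ⊆ S' → IsClosed S' → IsProperFibration (n := p + d) (p := p) f S')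
    (hne : Sᶜ.Nonempty) (htor : ∀ y ∉ S, IsTorAtE (p + d) p d m f y)
    (hin : ∀ D, Δ D ≠ 0 → ∀ y ∉ S, ¬ f ⁻¹' {y} ⊆ D) :
    ∃ r : ℕ, HasFam p d r f Δ ∧ ∃ H : ℕ → Set Y, (∀ k, IsThinSet (Cm p) (H k)) ∧
      ∀ y, (∀ k, y ∉ H k) →
      ∀ (F : Type) [TopologicalSpace F] [T2Space F] [ChartedSpace (Cm d) F] (i : F → X),
        H511.Surf.IsFibre (Cm (p + d)) (Cm d) f y i →
        TZ.S.kodR (Cm (p + d)) (Cm d) i Δ ≤ ((r : ℕ∞) : WithBot ℕ∞) := by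
  classical
  have : T2Space X := h.hausdorff.1
  have : T2Space Y := h.hausdorff.2
  have : CompactSpace X := h.compact
  have : ConnectedSpace X := h.connected
  set 𝒜 : Set (Set X) := {D | Δ D ≠ 0} with h𝒜
  have hfin : 𝒜.Finite := h.snc.1
  have hprime : ∀ D ∈ 𝒜, J.IsPrime (Cm (p + d)) D := h.snc.2.1
  have hΔ0 : ∀ D, 0 ≤ Δ D := fun D => (snc01 (JB.snc h.snc) D).1
  have hsurj : Function.Surjective f := fun y => (h.fibres y).nonempty
  have : PreconnectedSpace Y := by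
    rw [preconnectedSpace_iff_univ, ← hsurj.range_eq]
    exact isPreconnected_range h.hol.continuous
  have : Nonempty Y := by
    obtain ⟨x⟩ : Nonempty X := inferInstance
    exact ⟨f x⟩
  have hpre := (compl p Y S hS).2
  obtain ⟨n, Q, ι, U, π, u, hT⟩ := torM p d m X Y f S w hd h.hol (hP S subset_rfl hS.1) hpre hw
    htor hne
  obtain ⟨L, hD, hL⟩ := torD p d n X Y (KTame w) f S Q ι U π u 𝒜 hd h.hol hS.1 hpre
    (fun y _ => h.fibres y) hT hfin hprime hin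
  obtain ⟨r, S', hSS, hS', hr, hr1⟩ := H364.TD.gen_rank h.hol hS hpre hne (hP S subset_rfl hS.1)
    hD hfin hprime hin
  refine ⟨r, ⟨w, S', hw.toIsHermitian, hS', hP S' hSS hS'.1, fun e₀ y hy => ?_⟩, ?_⟩
  · exact hasFormsD_mono hSS (hasD' hd h.hol hD hfin hprime e₀ hΔ0
      (fun D hD => lt_of_le_of_ne (hΔ0 D) (Ne.symm hD)) (hr y hy))
  obtain ⟨H, hH, hsub⟩ := hS'.2
  refine ⟨H, hH, fun y hy F _ _ _ i hi => ?_⟩
  have hyS' : y ∉ S' := by
    intro h2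
    obtain ⟨k, hk⟩ := mem_iUnion.1 (hsub h2)
    exact hy k hk
  have hyS : y ∉ S := fun h2 => hyS' (hSS h2)
  exact H349.D.kodR_link hT (Δ := Δ) hL hyS (hr1 y hyS) hi

/-- **G10 for T-D**, from the blocks -/
theorem famD_of (ab : TK.ABStmt) (coreS : TK.TE.CoreStmt) (deg : TK.TE.DegEStmt)
    (crit : CritStmt) (compl : ComplStmt) (toc : TocEStmt) (torM : TorMStmt) (fib : FibTEStmt)
    (torD : TorNStmt) (fi : FibInStmt) {p d : ℕ} {X Y : Type} [TopologicalSpace X]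
    [ChartedSpace (Cm (p + d)) X] [IsManifold 𝓘(ℂ, Cm (p + d)) ω X] [TopologicalSpace Y]
    [ChartedSpace (Cm p) Y] [IsManifold 𝓘(ℂ, Cm p) ω Y] {f : X → Y}
    {Δ : Set X → ℝ} (hd : 0 < d) (h : H511.Surf.IsFibration (Cm (p + d)) (Cm p) f Δ)
    (hw : ∃ w : Chart (p + d) X → Cm (p + d) → Matrix (Fin (p + d)) (Fin (p + d)) ℂ,
      IsKahler w) :
    ∃ H : ℕ → Set Y, (∀ k, IsThinSet (Cm p) (H k)) ∧ ∀ y, (∀ k, y ∉ H k) →
      ∀ (F : Type) [TopologicalSpace F] [T2Space F] [ChartedSpace (Cm d) F] (i : F → X),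
        H511.Surf.IsFibre (Cm (p + d)) (Cm d) f y i → TK.IsParallel d F →
        ∃ r : ℕ, TZ.S.kodR (Cm (p + d)) (Cm d) i Δ ≤ ((r : ℕ∞) : WithBot ℕ∞) ∧
          HasFam p d r f Δ := by
  classical
  obtain ⟨w, hw⟩ := hw
  have : T2Space X := h.hausdorff.1
  have : T2Space Y := h.hausdorff.2
  have : CompactSpace X := h.compact
  have : ConnectedSpace X := h.connected
  have hsurj : Function.Surjective f := fun y => (h.fibres y).nonempty
  have : PreconnectedSpace Y := by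
    rw [preconnectedSpace_iff_univ, ← hsurj.range_eq]
    exact isPreconnected_range h.hol.continuous
  have : Nonempty Y := by
    obtain ⟨x⟩ : Nonempty X := inferInstance
    exact ⟨f x⟩
  obtain ⟨S₁, hS₁, hP⟩ := crit (p + d) p X Y f h.hol h.fibres
  have hP₁ := hP S₁ subset_rfl hS₁.1
  have hS : ∀ m : ℕ, ∃ S, S₁ ⊆ S ∧ IsSmallSet (Cm p) S ∧
      ((∃ y ∉ S₁, TK.TE.NDegE (p + d) p d m 0 f y) →
        ∀ y ∉ S, TK.TE.NDegE (p + d) p d m 0 f y) ∧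
      ∀ D, Δ D ≠ 0 → ∀ y ∉ S, ¬ f ⁻¹' {y} ⊆ D := by
    intro m
    obtain ⟨S₂, h1, h2, h3⟩ : ∃ S, S₁ ⊆ S ∧ IsSmallSet (Cm p) S ∧
        ((∃ y ∉ S₁, TK.TE.NDegE (p + d) p d m 0 f y) →
          ∀ y ∉ S, TK.TE.NDegE (p + d) p d m 0 f y) := by
      by_cases h4 : ∃ y ∉ S₁, TK.TE.NDegE (p + d) p d m 0 f y
      · obtain ⟨S', g1, g2, g3⟩ := deg p d m 0 X Y f S₁ w hd h.hol hsurj hP₁ hS₁
          (compl p Y S₁ hS₁).2 hw h4
        exact ⟨S', g1, g2, fun _ => g3⟩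
      · exact ⟨S₁, subset_rfl, hS₁, fun g => absurd g h4⟩
    obtain ⟨S₃, h4, h5, h6⟩ := fibIn_fin fi hd h.hol (S := S₂)
      (fun S' h7 h8 => hP S' (h1.trans h7) h8) h2 h.snc.1.toFinset
      (fun D hD => h.snc.2.1 D (h.snc.1.mem_toFinset.1 hD))
    refine ⟨S₃, h1.trans h4, h5, fun h7 y hy => h3 h7 y fun h8 => hy (h4 h8), fun D hD y hy => ?_⟩
    exact h6 D (h.snc.1.mem_toFinset.2 hD) y hy
  choose S hSS hSm hN hin using hS
  have hmain : ∀ m : ℕ, ∃ H : ℕ → Set Y, (∀ k, IsThinSet (Cm p) (H k)) ∧ ∀ y, (∀ k, y ∉ H k) →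
      (∃ y ∉ S m, IsTorAtE (p + d) p d m f y) →
      ∀ (F : Type) [TopologicalSpace F] [T2Space F] [ChartedSpace (Cm d) F] (i : F → X),
        H511.Surf.IsFibre (Cm (p + d)) (Cm d) f y i →
        ∃ r : ℕ, TZ.S.kodR (Cm (p + d)) (Cm d) i Δ ≤ ((r : ℕ∞) : WithBot ℕ∞) ∧
          HasFam p d r f Δ := by
    intro m
    by_cases h4 : ∃ y ∉ S m, IsTorAtE (p + d) p d m f y
    · obtain ⟨y₀, hy₀, hty₀⟩ := h4
      have hN' := hN m ⟨y₀, fun h5 => hy₀ (hSS m h5), nDegE_of_tor hty₀⟩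
      have htor := toc p d m X Y f (S m) w hd h.hol (hP (S m) (hSS m) (hSm m).1)
        (compl p Y (S m) (hSm m)).2 hw hN' ⟨y₀, hy₀, hty₀⟩
      obtain ⟨r, hF, H, hH, h5⟩ := mainD torM torD compl hd h hw (hSm m)
        (fun S' h7 h8 => hP S' ((hSS m).trans h7) h8) ⟨y₀, hy₀⟩ htor (hin m)
      exact ⟨H, hH, fun y hy _ F _ _ _ i hi => ⟨r, h5 y hy F i hi, hF⟩⟩
    · obtain ⟨H, hH, -⟩ := (hSm m).2
      exact ⟨H, hH, fun y hy h5 => absurd h5 h4⟩
  choose H hH hm using hmain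
  have hH' : ∀ m, ∃ H' : ℕ → Set Y, (∀ k, IsThinSet (Cm p) (H' k)) ∧ S m ⊆ ⋃ k, H' k :=
    fun m => (hSm m).2
  choose H' hH' hsub using hH'
  refine ⟨fun k => if k.unpair.2 % 2 = 0 then H k.unpair.1 (k.unpair.2 / 2)
    else H' k.unpair.1 (k.unpair.2 / 2), fun k => ?_, fun y hy F _ _ _ i hi hpar => ?_⟩
  · dsimp only
    split_ifs
    · exact hH _ _
    · exact hH' _ _
  · have hy1 : ∀ m k, y ∉ H m k := by
      intro m k
      have h3 := hy (Nat.pair m (2 * k))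
      simpa using h3
    have hy2 : ∀ m, y ∉ S m := by
      intro m h3
      obtain ⟨k, hk⟩ := mem_iUnion.1 (hsub m h3)
      have h4 := hy (Nat.pair m (2 * k + 1))
      have h5 : (2 * k + 1) / 2 = k := by omega
      have h6 : (2 * k + 1) % 2 = 1 := by omega
      simp only [Nat.unpair_pair, h5, h6, one_ne_zero, if_false] at h4
      exact h4 hk
    have hyS₁ : y ∉ S₁ := fun h3 => hy2 0 (hSS 0 h3)
    obtain ⟨m, hmt⟩ := fib p d X Y f S₁ hd h.hol hP₁ ab coreS y hyS₁ F i hi hpar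
    exact hm m y (hy1 m) ⟨y, hy2 m, hmt⟩ F i hi

/-- **G10 for T-D** -/
theorem famD {p d : ℕ} {X Y : Type} [TopologicalSpace X]
    [ChartedSpace (Cm (p + d)) X] [IsManifold 𝓘(ℂ, Cm (p + d)) ω X] [TopologicalSpace Y]
    [ChartedSpace (Cm p) Y] [IsManifold 𝓘(ℂ, Cm p) ω Y] {f : X → Y}
    {Δ : Set X → ℝ} (hd : 0 < d) (h : H511.Surf.IsFibration (Cm (p + d)) (Cm p) f Δ)
    (hw : ∃ w : Chart (p + d) X → Cm (p + d) → Matrix (Fin (p + d)) (Fin (p + d)) ℂ,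
      IsKahler w) :
    ∃ H : ℕ → Set Y, (∀ k, IsThinSet (Cm p) (H k)) ∧ ∀ y, (∀ k, y ∉ H k) →
      ∀ (F : Type) [TopologicalSpace F] [T2Space F] [ChartedSpace (Cm d) F] (i : F → X),
        H511.Surf.IsFibre (Cm (p + d)) (Cm d) f y i → TK.IsParallel d F →
        ∃ r : ℕ, TZ.S.kodR (Cm (p + d)) (Cm d) i Δ ≤ ((r : ℕ∞) : WithBot ℕ∞) ∧
          HasFam p d r f Δ :=
  famD_of H152.K.ab H603.TE.coreS (H969.E.degE_of_inputs TK.inputs) H303.UF.crit H383.Gen.compl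
    (H603.TD.tocE TK.inputs H125.Fib.tbas)
    (H603.TD.torM TK.inputs H485.K.tuni H125.Fib.tbas H485.U.tameBound (H485.U.norm1 H864.K.e1))
    H603.TD.fibTE H125.D.torN H364.TD.fibIn hd h hw

end Vale.Agent.P281.H511.TG
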